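import Mathlib
import Vale.Agent.P171.Defs
import Vale.Agent.P171.Space

/-!
A stable tempered radial pair potential on three dimensional space with a phase transition.
-/

open MeasureTheory Filter Topology
open scoped ENNReal

namespace Vale.Agent.Results.P171.PhaseTransition

open Vale.Agent.P171

theorem result :
    ∃ φ : ℝ → ℝ, Measurable φ ∧ LocallyBoundedOnPos φ ∧ IsStable φ ∧ IsTempered φ ∧
      ∃ β : ℝ, 0 < β ∧
        (∀ (L : ℝ) (N : ℕ), 0 < L →
          IntegrableOn (fun x : Fin N → E3 => Real.exp (-β * pairEnergy φ x))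
            (Set.univ.pi fun _ : Fin N => box L)) ∧
        (∀ L z : ℝ, 0 < L → 0 < z → Summable fun N : ℕ => z ^ N * canonicalZ φ β L N) ∧
        ∃ P : ℝ → ℝ,
          (∀ z : ℝ, 0 < z →
            Tendsto (fun L : ℝ => Real.log (grandZ φ β L z) / L ^ 3) atTop (𝓝 (P z))) ∧
          ∃ z₀ : ℝ, 0 < z₀ ∧ ¬ DifferentiableAt ℝ P z₀ := by
  obtain ⟨c, μ₀, hc, hk⟩ := exists_kink
  obtain ⟨D, hD0, hD⟩ := stable_potC hc
  have hm := measurable_radial (potC_measurable hc)
  have hen : ∀ {N : ℕ} (x : Fin N → E3),
      -1 * pairEnergy (potC c) x = -energy (radial (potC c)) x := fun x => by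
    rw [energy_radial_eq_pairEnergy]; ring
  have hint : ∀ (L : ℝ) (N : ℕ), 0 < L →
      IntegrableOn (fun x : Fin N → E3 => Real.exp (-1 * pairEnergy (potC c) x))
        (Set.univ.pi fun _ : Fin N => box L) := by
    intro L N hL
    simp_rw [hen]
    refine Measure.integrableOn_of_bounded (M := Real.exp (D * N)) ?_
      ((measurable_energy hm).neg.exp.aestronglyMeasurable) ?_
    · rw [volume_pi_pi]
      exact ENNReal.prod_ne_top fun i _ => by rw [volume_box hL.le]; exact ENNReal.ofReal_ne_top
    · filter_upwards [ae_restrict_of_ae (ae_injective (Fin N))] with x hx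
      rw [Real.norm_eq_abs, abs_of_pos (Real.exp_pos _), Real.exp_le_exp]
      linarith [hD N x hx]
  have hterm : ∀ (L z : ℝ) (N : ℕ), 0 < L → 0 < z → z ^ N * canonicalZ (potC c) 1 L N =
      (ENNReal.ofReal (Real.exp (Real.log z * N) / N.factorial) *
        Q (radial (potC c)) (box L) (Fin N)).toReal := by
    intro L z N hL hz
    rw [ENNReal.toReal_mul, ENNReal.toReal_ofReal (by positivity), mul_comm (Real.log z),
      Real.exp_nat_mul, Real.exp_log hz, canonicalZ,
      integral_eq_lintegral_of_nonneg_ae (Eventually.of_forall fun x => (Real.exp_pos _).le)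
        (hint L N hL).aestronglyMeasurable]
    simp_rw [hen]
    unfold Q
    ring
  have hsum : ∀ L z : ℝ, 0 < L → 0 < z →
      Summable fun N : ℕ => z ^ N * canonicalZ (potC c) 1 L N := by
    intro L z hL hz
    refine Summable.congr (ENNReal.summable_toReal (Xi_box_ne_top hc (Real.log z) L)) fun N => ?_
    exact (hterm L z N hL hz).symm
  refine ⟨potC c, potC_measurable hc, ?_, ⟨D, fun N x hx => ?_⟩, ?_, 1, one_pos, hint, hsum,
    fun z => pres c (Real.log z), ?_, Real.exp μ₀, Real.exp_pos _, ?_⟩
  · intro a b ha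
    refine ⟨1 / a ^ 4 + ∑' m, c m, fun r hr => ?_⟩
    have h1 : core r ≤ 1 / a ^ 4 := by
      unfold core
      split_ifs
      · exact one_div_le_one_div_of_le (by positivity) (by gcongr; exact hr.1)
      · positivity
    have h2 := hc.attr_le r
    have h3 := hc.attr_nonneg r
    have h4 := core_nonneg r
    have h5 : (0 : ℝ) ≤ 1 / a ^ 4 := by positivity
    rw [potC, abs_le]
    constructor <;> linarith
  · rw [← energy_radial_eq_pairEnergy]
    linarith [hD N x hx]
  · refine ⟨1, 1, 1, one_pos, one_pos, one_pos, fun r hr => (hc.potC_le_zero hr).trans ?_⟩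
    have : 0 < r := lt_of_lt_of_le one_pos hr
    positivity
  · intro z hz
    refine (tendsto_pres hc (Real.log z)).congr' ?_
    filter_upwards [eventually_gt_atTop 0] with L hL
    unfold lam grandZ
    congr 2
    rw [Xi, ENNReal.tsum_toReal_eq]
    · exact tsum_congr fun N => (hterm L z N hL hz).symm
    · exact fun N => ENNReal.ne_top_of_tsum_ne_top (Xi_box_ne_top hc (Real.log z) L) N
  · intro hd
    apply hk
    have := hd.comp μ₀ Real.differentiableAt_exp
    simpa [Function.comp_def] using this

end Vale.Agent.Results.P171.PhaseTransition
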